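import Vale.Agent.P067.Full.Group.Basic

/-!
# P067 full answer, Cover: the nilpotent rings of a face

`aJ J` is the set of elements of `nf` lying in `nfJ {v}` for all types `v` of `J`.
-/

open Finset

noncomputable section

namespace Vale.Agent.P067.Full.Cover

open Vale.Agent.P067.Full.Grp (nf_add nf_mul nfJ_zero nfJ_add nfJ_mul)

variable {n p m : ℕ}

theorem nf_neg {x : Mn n p m} (hx : x ∈ nf n p m) : -x ∈ nf n p m :=
  fun a b h => by rw [Matrix.neg_apply]; exact neg_mem (hx a b h)

theorem nfJ_neg {J : Finset (Fin n)} {x : Mn n p m} (hx : x ∈ nfJ n p m J) : -x ∈ nfJ n p m J := by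
  obtain ⟨c, hc, hx⟩ := hx
  refine ⟨-c, fun v hv a b h => by simp [hc v hv a b h], fun a b => ?_⟩
  rw [Matrix.neg_apply, hx]
  split_ifs
  · simp
  · simp only [sc, Pi.neg_apply, map_neg]; ring

/-- The ring of the types of `J`. -/
def aJ (n p m : ℕ) (J : Finset (Fin n)) : NonUnitalSubring (Mn n p m) where
  carrier := {x | x ∈ nf n p m ∧ ∀ v ∈ J, x ∈ nfJ n p m {v}}
  zero_mem' := ⟨Grp.nf_zero, fun _ _ => nfJ_zero _⟩
  add_mem' hx hy := ⟨nf_add hx.1 hy.1, fun v hv => nfJ_add (hx.2 v hv) (hy.2 v hv)⟩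
  mul_mem' hx hy := ⟨nf_mul hx.1 hy.1, fun v hv => nfJ_mul (singleton_nonempty v) (hx.2 v hv) (hy.2 v hv)⟩
  neg_mem' hx := ⟨nf_neg hx.1, fun v hv => nfJ_neg (hx.2 v hv)⟩

theorem mem_aJ {J : Finset (Fin n)} {x : Mn n p m} :
    x ∈ aJ n p m J ↔ x ∈ nf n p m ∧ ∀ v ∈ J, x ∈ nfJ n p m {v} :=
  Iff.rfl

theorem aJ_anti {J J' : Finset (Fin n)} (h : J ⊆ J') {x : Mn n p m} (hx : x ∈ aJ n p m J') :
    x ∈ aJ n p m J :=
  ⟨hx.1, fun v hv => hx.2 v (h hv)⟩

theorem nf_eq_zero_of_pow {x : Mn n p m} (k : ℕ) (hk : n * m ≤ k)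
    (h : ∀ a b : Fin n, ∀ e : ℕ, e * n + b.1 < k + a.1 → x a b ∈ Ideal.span {tt p m ^ (e + 1)}) :
    x = 0 := by
  refine Matrix.ext fun a b => ?_
  rcases Nat.eq_zero_or_pos m with rfl | hm
  · have : Subsingleton (Rm p 0) := Ideal.Quotient.subsingleton_iff.2 (by simp)
    exact Subsingleton.elim _ _
  have h1 : (m - 1) * n + n ≤ k := by
    have : m * n = (m - 1) * n + n := by
      conv_lhs => rw [show m = m - 1 + 1 by omega, add_mul, one_mul]
    rw [Nat.mul_comm] at hk
    omega
  have := h a b (m - 1) (by have := b.2; omega)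
  rw [show m - 1 + 1 = m by omega] at this
  have htm : tt p m ^ m = 0 := by
    rw [tt, ← map_pow]
    exact Ideal.Quotient.eq_zero_iff_mem.2 (Ideal.subset_span rfl)
  rw [htm, Ideal.span_singleton_eq_bot.2 rfl] at this
  simpa using this

/-- Products of `n * m` elements of `nf` vanish. -/
theorem nf_prod_eq_zero (l : List (Mn n p m)) (hl : ∀ x ∈ l, x ∈ nf n p m) (hlen : n * m ≤ l.length) :
    l.prod = 0 := by
  refine nf_eq_zero_of_pow l.length hlen ?_
  clear hlen
  induction l with
  | nil =>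
    intro a b e he
    by_cases hab : a = b
    · subst hab
      exfalso
      simp at he
    · simp [hab]
  | cons x l ih =>
    intro a b e he
    rw [List.prod_cons, Matrix.mul_apply]
    refine Ideal.sum_mem _ fun c _ => ?_
    have hl' := ih fun z hz => hl z (List.mem_cons_of_mem _ hz)
    rw [List.length_cons] at he
    rcases le_or_gt c a with hca | hca
    · have hxa := hl x (List.mem_cons_self ..) a c hca
      rcases Nat.eq_zero_or_pos e with rfl | hpos
      · rw [zero_add, pow_one]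
        exact Ideal.mul_mem_right _ _ hxa
      · have h2 := hl' c b (e - 1) (by
          have : e * n = (e - 1) * n + n := by
            conv_lhs => rw [show e = e - 1 + 1 by omega, add_mul, one_mul]
          have := a.2
          omega)
        rw [show e - 1 + 1 = e by omega] at h2
        have := Ideal.mul_mem_mul hxa h2
        rwa [Ideal.span_singleton_mul_span_singleton, ← pow_succ'] at this
    · exact Ideal.mul_mem_left _ _ (hl' c b e (by
        have := Fin.lt_def.1 hca
        omega))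

end Vale.Agent.P067.Full.Cover

end
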