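import Vale.Agent.P067.Full.Chains
import Vale.Agent.P067.Full.Cover.Rings

/-!
# P067 full answer, Cover: representatives of faces, stabilisers, determinant correction
-/

open Finset

noncomputable section

namespace Vale.Agent.P067.Full.Cover

variable {n M p m : ℕ}

/-- The types of a set of vertices. -/
def types (s : Finset (Vx n M p m)) : Finset (Fin n) := s.image Sigma.fst

theorem mem_chamber {g : Ga n M p m} {x : Vx n M p m} : x ∈ chamber g ↔ vert g x.1 = x := by
  constructor
  · intro h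
    obtain ⟨v, -, rfl⟩ := Finset.mem_map.1 h
    rfl
  · intro h
    exact Finset.mem_map.2 ⟨x.1, mem_univ _, h⟩

theorem vert_eq_iff {g g' : Ga n M p m} {v : Fin n} :
    vert g v = vert g' v ↔ g⁻¹ * g' ∈ Kv n M p m v := by
  simp only [vert, Sigma.mk.injEq, heq_eq_eq, true_and, QuotientGroup.eq]

theorem vmul_vert (g h : Ga n M p m) (v : Fin n) : vmul g (vert h v) = vert (g * h) v := rfl

theorem vmul_vmul (g h : Ga n M p m) (x : Vx n M p m) : vmul g (vmul h x) = vmul (g * h) x := by
  obtain ⟨v, y⟩ := x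
  induction y using QuotientGroup.induction_on with
  | H y =>
    show vmul g (vmul h (vert y v)) = vmul (g * h) (vert y v)
    rw [vmul_vert, vmul_vert, vmul_vert, mul_assoc]

theorem vmul_one (x : Vx n M p m) : vmul (1 : Ga n M p m) x = x := by
  simp [vmul]

theorem vmul_injective (g : Ga n M p m) : Function.Injective (vmul (n := n) g) := fun x y h => by
  have := congrArg (vmul g⁻¹) h
  simpa [vmul_vmul, vmul_one] using this

theorem image_vmul_chamber (g h : Ga n M p m) : (chamber h).image (vmul g) = chamber (g * h) := by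
  rw [chamber, chamber, Finset.map_eq_image, Finset.map_eq_image, Finset.image_image]
  rfl

theorem image_vmul_subset {g h : Ga n M p m} {s : Finset (Vx n M p m)} (hs : s ⊆ chamber h) :
    s.image (vmul g) ⊆ chamber (g * h) :=
  image_vmul_chamber g h ▸ image_subset_image hs

theorem xmul_xmul (g h : Ga n M p m) (z : Ch (Vx n M p m)) :
    xmul g (xmul h z) = xmul (g * h) z := by
  rw [xmul, xmul, xmul, chMap_chMap]
  exact congrArg (fun F => chMap F z) (funext fun x => vmul_vmul g h x)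

theorem xmul_one (z : Ch (Vx n M p m)) : xmul (1 : Ga n M p m) z = z :=
  (chMap_congr fun _ _ x _ => vmul_one x).trans (chMap_id z)

theorem mem_KSet {v : Fin n} [NeZero p] {g : Ga n M p m} :
    g ∈ Kv n M p m v ↔ ∀ i j, ((g : BM n M p m) - 1) i j ∈ nfJ n p m {v} :=
  Grp.mem_Kv v g

/-- Two representatives of a face differ by a matrix congruent to one modulo its ring. -/
theorem entries_of_reps [NeZero p] {S : Finset (Fin M)} {g g' : Ga n M p m}
    {s : Finset (Vx n M p m)} (hg : g ∈ GS n M p m S) (hg' : g' ∈ GS n M p m S)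
    (hs : s ⊆ chamber g) (hs' : s ⊆ chamber g') (i j : Fin M) :
    (((g⁻¹ * g' : Ga n M p m)) : BM n M p m) i j - (1 : BM n M p m) i j ∈
      aJ n p m (types s) := by
  refine mem_aJ.2 ⟨((Grp.mem_GS S _).1 (mul_mem (inv_mem hg) hg')).1 i j, fun v hv => ?_⟩
  obtain ⟨x, hx, rfl⟩ := mem_image.1 hv
  have h : vert g x.1 = vert g' x.1 := (mem_chamber.1 (hs hx)).trans (mem_chamber.1 (hs' hx)).symm
  exact mem_KSet.1 (vert_eq_iff.1 h) i j

/-- Right multiplication by a matrix congruent to one modulo the ring of a face. -/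
theorem subset_chamber_mul [NeZero p] {g k : Ga n M p m} {s : Finset (Vx n M p m)}
    (hs : s ⊆ chamber g) (hk : ∀ i j, ((k : BM n M p m) - 1) i j ∈ aJ n p m (types s)) :
    s ⊆ chamber (g * k) := by
  intro x hx
  refine mem_chamber.2 (Eq.trans ?_ (mem_chamber.1 (hs hx)))
  refine (vert_eq_iff.2 ?_).symm
  rw [inv_mul_cancel_left]
  exact mem_KSet.2 fun i j => (hk i j).2 x.1 (mem_image_of_mem _ hx)

/-- Congruent to one modulo the ring of a nonempty set of types: in the group. -/
theorem mem_GS_of_aJ [NeZero p] {S : Finset (Fin M)} {J : Finset (Fin n)} (hJ : J.Nonempty)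
    {k : Ga n M p m} (hk : ∀ i j, ((k : BM n M p m) - 1) i j ∈ aJ n p m J)
    (hsupp : ∀ i j, (i ∉ S ∨ j ∉ S) → ((k : BM n M p m) - 1) i j = 0) : k ∈ GS n M p m S := by
  obtain ⟨v, hv⟩ := hJ
  exact (Grp.mem_GS S k).2 ⟨fun i j => (hk i j).1, hsupp,
    Grp.det_of_mem_KSet (mem_singleton_self v) fun i j => (hk i j).2 v hv⟩

/-- Fixing the colours of `T` on both sides leaves an element of the other colours. -/
theorem mem_GS_sdiff [NeZero p] {S T : Finset (Fin M)} {g : Ga n M p m} (hg : g ∈ GS n M p m S)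
    (hcol : ∀ j ∈ T, ∀ i, (g : BM n M p m) i j = (1 : BM n M p m) i j)
    (hrow : ∀ i ∈ T, ∀ j, (g : BM n M p m) i j = (1 : BM n M p m) i j) :
    g ∈ GS n M p m (S \ T) := by
  obtain ⟨h1, h2, h3⟩ := (Grp.mem_GS S g).1 hg
  refine (Grp.mem_GS _ g).2 ⟨h1, fun i j hij => ?_, h3⟩
  simp only [mem_sdiff, not_and, not_not] at hij
  by_cases hi : i ∈ S
  · by_cases hj : j ∈ S
    · rw [Matrix.sub_apply, sub_eq_zero]
      rcases hij with h | h
      · exact hrow i (h hi) j
      · exact hcol j (h hj) i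
    · exact h2 i j (Or.inr hj)
  · exact h2 i j (Or.inl hi)

theorem GS_mono [NeZero p] {S S' : Finset (Fin M)} (h : S ⊆ S') {g : Ga n M p m}
    (hg : g ∈ GS n M p m S) : g ∈ GS n M p m S' := by
  obtain ⟨h1, h2, h3⟩ := (Grp.mem_GS S g).1 hg
  exact (Grp.mem_GS _ g).2
    ⟨h1, fun i j hij => h2 i j (hij.imp (fun h' h'' => h' (h h'')) fun h' h'' => h' (h h'')), h3⟩

theorem row_eq_one [NeZero p] {S : Finset (Fin M)} {g : Ga n M p m} (hg : g ∈ GS n M p m S)
    {i : Fin M} (hi : i ∉ S) (j : Fin M) : (g : BM n M p m) i j = (1 : BM n M p m) i j :=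
  sub_eq_zero.1 (((Grp.mem_GS S g).1 hg).2.1 i j (Or.inl hi))

theorem col_eq_one [NeZero p] {S : Finset (Fin M)} {g : Ga n M p m} (hg : g ∈ GS n M p m S)
    {j : Fin M} (hj : j ∉ S) (i : Fin M) : (g : BM n M p m) i j = (1 : BM n M p m) i j :=
  sub_eq_zero.1 (((Grp.mem_GS S g).1 hg).2.1 i j (Or.inr hj))

theorem map_det' {R S : Type} [CommRing R] [CommRing S] {ι : Type} [Fintype ι] [DecidableEq ι]
    (f : R →+* S) (A : Matrix ι ι R) : f A.det = (A.map f).det :=
  RingHom.map_det f A

/-- The determinant of a matrix congruent to one modulo `nf` is one modulo `t`. -/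
theorem det_sub_one_mem {k : BM n M p m} (hk : ∀ i j, (k - 1) i j ∈ nf n p m) :
    (Grp.compH n M p m k).det - 1 ∈ Ideal.span {tt p m} := by
  classical
  set π : Rm p m →+* (Rm p m ⧸ Ideal.span {tt p m}) := Ideal.Quotient.mk (Ideal.span {tt p m}) with hπ
  set G := (Grp.compH n M p m k).map π with hG
  have hent : ∀ x y : Fin M × Fin n, y.2 ≤ x.2 →
      G x y = (1 : Matrix (Fin M × Fin n) (Fin M × Fin n) (Rm p m ⧸ Ideal.span {tt p m})) x y := by
    intro x y h
    have h0 : π ((Grp.compH n M p m (k - 1)) x y) = 0 :=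
      Ideal.Quotient.eq_zero_iff_mem.2 (hk x.1 y.1 x.2 y.2 h)
    rw [map_sub, map_one, Matrix.sub_apply, map_sub, sub_eq_zero] at h0
    rw [hG, Matrix.map_apply, h0, ← Matrix.map_one π (map_zero π) (map_one π), Matrix.map_apply]
  have htri : G.BlockTriangular fun x => x.2 := fun x y hxy => by
    rw [hent x y (le_of_lt hxy), Matrix.one_apply_ne]
    rintro rfl
    exact lt_irrefl _ hxy
  have hdet : G.det = 1 := by
    rw [htri.det]
    refine Finset.prod_eq_one fun a _ => ?_
    rw [show G.toSquareBlock (fun x => x.2) a = 1 from ?_, Matrix.det_one]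
    ext x y
    show G x.1 y.1 = (1 : Matrix {x : Fin M × Fin n // x.2 = a} _ _) x y
    rw [hent x.1 y.1 (by rw [x.2, y.2]), Matrix.one_apply, Matrix.one_apply]
    simp [Subtype.ext_iff]
  rw [← Ideal.Quotient.eq_zero_iff_mem, map_sub, map_one]
  exact sub_eq_zero.2 ((map_det' (R := Rm p m) (S := Rm p m ⧸ Ideal.span {tt p m}) π
    (Grp.compH n M p m k)).trans hdet)

/-- A spare colour corrects the determinant. -/
theorem exists_det_fix [NeZero p] (hn : 0 < n) {S T : Finset (Fin M)} {i₀ : Fin M} (hi : i₀ ∈ S)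
    (hiT : i₀ ∉ T) {k : Ga n M p m} (hk : ∀ i j, ((k : BM n M p m) - 1) i j ∈ nf n p m)
    (hsupp : ∀ i j, (i ∉ S ∨ j ∉ S) → ((k : BM n M p m) - 1) i j = 0) :
    ∃ h ∈ GS n M p m S, (∀ j ∈ T, ∀ i, (h : BM n M p m) i j = (k : BM n M p m) i j) ∧
      ∀ i ∈ T, ∀ j, ((h⁻¹ : Ga n M p m) : BM n M p m) i j = ((k⁻¹ : Ga n M p m) : BM n M p m) i j := by
  classical
  set E := Grp.compH n M p m with hE
  set a₀ : Fin n := ⟨0, hn⟩
  have hu : IsUnit (E (k : BM n M p m)).det :=
    (Matrix.isUnit_iff_isUnit_det _).1 ((IsUnit.map E) k.isUnit)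
  obtain ⟨d, hd⟩ := hu
  let w : Fin M × Fin n → (Rm p m)ˣ := fun x => if x = (i₀, a₀) then d⁻¹ else 1
  let Dm : (Matrix (Fin M × Fin n) (Fin M × Fin n) (Rm p m))ˣ :=
    ⟨Matrix.diagonal fun x => (w x : Rm p m), Matrix.diagonal fun x => (((w x)⁻¹ : (Rm p m)ˣ) : Rm p m),
      by simp [Matrix.diagonal_mul_diagonal], by simp [Matrix.diagonal_mul_diagonal]⟩
  let D : Ga n M p m :=
    Units.map (Matrix.compRingEquiv (Fin M) (Fin n) (Rm p m)).symm.toMonoidHom Dm
  have hED : E (D : BM n M p m) = Matrix.diagonal fun x => (w x : Rm p m) := by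
    show (Matrix.compRingEquiv (Fin M) (Fin n) (Rm p m))
      ((Matrix.compRingEquiv (Fin M) (Fin n) (Rm p m)).symm _) = _
    exact RingEquiv.apply_symm_apply _ _
  have hEDi : E ((D⁻¹ : Ga n M p m) : BM n M p m) =
      Matrix.diagonal fun x => (((w x)⁻¹ : (Rm p m)ˣ) : Rm p m) := by
    show (Matrix.compRingEquiv (Fin M) (Fin n) (Rm p m))
      ((Matrix.compRingEquiv (Fin M) (Fin n) (Rm p m)).symm _) = _
    exact RingEquiv.apply_symm_apply _ _
  have hentry : ∀ (u : Fin M × Fin n → Rm p m) (X : BM n M p m), E X = Matrix.diagonal u →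
      ∀ i j, X i j = if i = j then Matrix.diagonal (fun a => u (i, a)) else 0 := by
    intro u X hX i j
    refine Matrix.ext fun a b => ?_
    have : X i j a b = Matrix.diagonal u (i, a) (j, b) := by rw [← hX]; rfl
    rw [this]
    by_cases hij : i = j <;> by_cases hab : a = b <;> simp [Matrix.diagonal, hij, hab]
  have hDsupp : ∀ i j, (i ≠ i₀ ∨ j ≠ i₀) → (D : BM n M p m) i j = (1 : BM n M p m) i j ∧
      ((D⁻¹ : Ga n M p m) : BM n M p m) i j = (1 : BM n M p m) i j := by
    intro i j hij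
    rw [hentry _ _ hED i j, hentry _ _ hEDi i j, Matrix.one_apply]
    by_cases h : i = j
    · subst h
      have hi' : i ≠ i₀ := by rcases hij with h | h <;> exact h
      constructor <;> simp [w, hi']
    · simp [h]
  have hDnf : ∀ i j, ((D : BM n M p m) - 1) i j ∈ nf n p m := by
    intro i j
    by_cases h : i = i₀ ∧ j = i₀
    · obtain ⟨rfl, rfl⟩ := h
      intro a b _
      rw [Matrix.sub_apply, hentry _ _ hED, if_pos rfl, Matrix.one_apply_eq, Matrix.sub_apply]
      by_cases hab : a = b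
      · subst hab
        rw [Matrix.diagonal_apply_eq, Matrix.one_apply_eq]
        by_cases ha : a = a₀
        · have h1 := det_sub_one_mem hk
          rw [← hE, ← hd] at h1
          have h2 := Ideal.mul_mem_left _ (-((d⁻¹ : (Rm p m)ˣ) : Rm p m)) h1
          simp only [w, ha, if_pos]
          convert h2 using 1
          have e := Units.inv_mul d
          linear_combination e
        · simp [w, ha]
      · simp [hab]
    · rw [Matrix.sub_apply, (hDsupp i j (not_and_or.1 h)).1, sub_self]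
      exact Grp.nf_zero
  refine ⟨k * D, (Grp.mem_GS S _).2 ⟨fun i j => ?_, fun i j hij => ?_, ?_⟩, fun j hj i => ?_,
    fun i hi' j => ?_⟩
  · rw [Grp.coe_mul_sub_one, Matrix.add_apply, Matrix.add_apply, Matrix.mul_apply]
    exact Grp.nf_add (Grp.nf_add (hk i j) (hDnf i j))
      (Grp.nf_sum _ _ fun l _ => Grp.nf_mul (hk i l) (hDnf l j))
  · have hD0 : ∀ a b : Fin M, (a ∉ S ∨ b ∉ S) → ((D : BM n M p m) - 1) a b = 0 := fun a b hab => by
      rw [Matrix.sub_apply, (hDsupp a b (hab.imp (fun h e => h (e ▸ hi)) fun h e => h (e ▸ hi))).1,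
        sub_self]
    rw [Grp.coe_mul_sub_one, Matrix.add_apply, Matrix.add_apply, Matrix.mul_apply, hsupp i j hij,
      hD0 i j hij, zero_add, zero_add]
    refine Finset.sum_eq_zero fun l _ => ?_
    rcases hij with h' | h'
    · rw [hsupp i l (Or.inl h'), zero_mul]
    · rw [hD0 l j (Or.inr h'), mul_zero]
  · rw [← Grp.compH_apply, Units.val_mul, map_mul, Matrix.det_mul, hED, Matrix.det_diagonal, ← hE,
      ← hd]
    simp [w, Finset.prod_ite_eq', Units.coe_prod, apply_ite ((↑) : (Rm p m)ˣ → Rm p m)]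
  · rw [Units.val_mul, Matrix.mul_apply, Finset.sum_eq_single j]
    · rw [(hDsupp j j (Or.inl fun e => hiT (e ▸ hj))).1, Matrix.one_apply_eq, mul_one]
    · intro l _ hl
      rw [(hDsupp l j (Or.inr fun e => hiT (e ▸ hj))).1, Matrix.one_apply_ne hl, mul_zero]
    · exact fun h => absurd (mem_univ j) h
  · rw [mul_inv_rev, Units.val_mul, Matrix.mul_apply, Finset.sum_eq_single i]
    · rw [(hDsupp i i (Or.inl fun e => hiT (e ▸ hi'))).2, Matrix.one_apply_eq, one_mul]
    · intro l _ hl
      rw [(hDsupp i l (Or.inl fun e => hiT (e ▸ hi'))).2, Matrix.one_apply_ne (Ne.symm hl), zero_mul]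
    · exact fun h => absurd (mem_univ i) h

end Vale.Agent.P067.Full.Cover

end
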