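import Vale.Agent.P067.Full.Frames

/-!
# P067 full answer, Cover: moving frames by matrices, completions
-/

open Finset

noncomputable section

namespace Vale.Agent.P067.Full.Nilframe

variable {κ Λ : Type} [Fintype κ] [DecidableEq κ] [Ring Λ] {𝔞 : NonUnitalSubring Λ}
  {R Z : Finset κ}

/-- A frame moved by an invertible matrix. -/
def tr (g : (Matrix κ κ Λ)ˣ) (a : Fr κ Λ) : Fr κ Λ :=
  ⟨a.j, (g : Matrix κ κ Λ).mulVec a.v, Matrix.vecMul a.f ((g⁻¹ : (Matrix κ κ Λ)ˣ) : Matrix κ κ Λ)⟩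

theorem tr_tr (g h : (Matrix κ κ Λ)ˣ) (a : Fr κ Λ) : tr g (tr h a) = tr (g * h) a := by
  simp [tr, Matrix.mulVec_mulVec, Matrix.vecMul_vecMul]

theorem tr_one (a : Fr κ Λ) : tr (1 : (Matrix κ κ Λ)ˣ) a = a := by
  simp [tr]

theorem tr_injective (g : (Matrix κ κ Λ)ˣ) : Function.Injective (tr g) := fun a b h => by
  simpa [tr_tr, tr_one] using congrArg (tr g⁻¹) h

theorem dot_tr (g : (Matrix κ κ Λ)ˣ) (a b : Fr κ Λ) :
    dot (tr g a).f (tr g b).v = dot a.f b.v := by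
  show Matrix.vecMul a.f ((g⁻¹ : (Matrix κ κ Λ)ˣ) : Matrix κ κ Λ) ⬝ᵥ
    (g : Matrix κ κ Λ).mulVec b.v = a.f ⬝ᵥ b.v
  rw [Matrix.dotProduct_mulVec, Matrix.vecMul_vecMul, ← Units.val_mul, inv_mul_cancel,
    Units.val_one, Matrix.vecMul_one]

/-- Moving by matrices congruent to one, which are one on the rows and columns of `Z`. -/
theorem frC_tr {g : (Matrix κ κ Λ)ˣ} (hg : ∀ i j, ((g : Matrix κ κ Λ) - 1) i j ∈ 𝔞)
    (hg' : ∀ i j, (((g⁻¹ : (Matrix κ κ Λ)ˣ) : Matrix κ κ Λ) - 1) i j ∈ 𝔞)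
    (hgZ : ∀ i ∈ Z, ∀ j, (g : Matrix κ κ Λ) i j = (1 : Matrix κ κ Λ) i j)
    (hgZ' : ∀ j ∈ Z, ∀ i, ((g⁻¹ : (Matrix κ κ Λ)ˣ) : Matrix κ κ Λ) i j = (1 : Matrix κ κ Λ) i j)
    {U : Finset (Fr κ Λ)} (hU : U ∈ FrC 𝔞 R Z) : U.image (tr g) ∈ FrC 𝔞 R Z := by
  have hfr : ∀ a, IsFr 𝔞 Z a → IsFr 𝔞 Z (tr g a) := by
    intro a ha
    refine ⟨fun i => ?_, fun i => ?_, (dot_tr g a a).trans ha.pair, ha.notMem, fun z hz => ?_,
      fun z hz => ?_⟩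
    · have e : (tr g a).v i - (Pi.single a.j 1 : κ → Λ) i =
          ((g : Matrix κ κ Λ) - 1).mulVec a.v i + (a.v i - (Pi.single a.j 1 : κ → Λ) i) := by
        rw [Matrix.sub_mulVec, Matrix.one_mulVec, Pi.sub_apply]
        simp only [tr]
        abel
      show (tr g a).v i - (Pi.single a.j 1 : κ → Λ) i ∈ 𝔞
      rw [e]
      exact add_mem (sum_mem fun l _ => mem_mul_uni (ha.v_std.uni l) (hg i l)) (ha.v_std i)
    · have e : (tr g a).f i - (Pi.single a.j 1 : κ → Λ) i =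
          Matrix.vecMul a.f (((g⁻¹ : (Matrix κ κ Λ)ˣ) : Matrix κ κ Λ) - 1) i +
            (a.f i - (Pi.single a.j 1 : κ → Λ) i) := by
        rw [Matrix.vecMul_sub, Matrix.vecMul_one, Pi.sub_apply]
        simp only [tr]
        abel
      show (tr g a).f i - (Pi.single a.j 1 : κ → Λ) i ∈ 𝔞
      rw [e]
      exact add_mem (sum_mem fun l _ => uni_mul_mem (ha.f_std.uni l) (hg' l i)) (ha.f_std i)
    · show ∑ l, (g : Matrix κ κ Λ) z l * a.v l = 0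
      simp [hgZ z hz, Matrix.one_apply, ha.v_zero z hz]
    · show ∑ l, a.f l * ((g⁻¹ : (Matrix κ κ Λ)ˣ) : Matrix κ κ Λ) l z = 0
      simp [hgZ' z hz, Matrix.one_apply, ha.f_zero z hz]
  refine ⟨fun a ha => ?_, fun a ha b hb hne => ?_⟩
  · obtain ⟨a', ha', rfl⟩ := mem_image.1 ha
    exact ⟨hfr a' (hU.1 a' ha').1, (hU.1 a' ha').2⟩
  · obtain ⟨a', ha', rfl⟩ := mem_image.1 ha
    obtain ⟨b', hb', rfl⟩ := mem_image.1 hb
    obtain ⟨h1, h2, h3⟩ := hU.2 a' ha' b' hb' fun e => hne (e ▸ rfl)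
    exact ⟨h1, (dot_tr g a' b').trans h2, (dot_tr g b' a').trans h3⟩

theorem frC_ring {𝔟 : NonUnitalSubring Λ} (h : ∀ x ∈ 𝔞, x ∈ 𝔟) {U : Finset (Fr κ Λ)}
    (hU : U ∈ FrC 𝔞 R Z) : U ∈ FrC 𝔟 R Z := by
  refine ⟨fun a ha => ⟨?_, (hU.1 a ha).2⟩, hU.2⟩
  obtain ⟨h1, h2, h3, h4, h5, h6⟩ := (hU.1 a ha).1
  exact ⟨fun i => h _ (h1 i), fun i => h _ (h2 i), h3, h4, h5, h6⟩

/-- Completion: a unit congruent to one moving the standard frames onto an orthogonal family. -/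
theorem exists_completion {k : ℕ} (hk : Nilp 𝔞 k) {U : Finset (Fr κ Λ)} (hU : U ∈ FrC 𝔞 R Z) :
    ∃ g : (Matrix κ κ Λ)ˣ, (∀ i j, ((g : Matrix κ κ Λ) - 1) i j ∈ 𝔞) ∧
      (∀ i j, (i ∈ Z ∨ j ∈ Z) → ((g : Matrix κ κ Λ) - 1) i j = 0) ∧
      ∀ a ∈ U, tr g (stdFr a.j) = a := by
  obtain ⟨g, g', h1, h2, hg, -, hU', hZ⟩ := exists_matrix 𝔞 hk hU
  refine ⟨⟨g, g', h1, h2⟩, hg, fun i j hij => hij.elim (fun h => (hZ i h j).2) fun h => (hZ j h i).1,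
    fun a ha => ?_⟩
  obtain ⟨hv, hf⟩ := hU' a ha
  show (⟨a.j, g.mulVec (Pi.single a.j 1), Matrix.vecMul (Pi.single a.j 1) g'⟩ : Fr κ Λ) = a
  rw [Matrix.mulVec_single_one, ← hf, Matrix.vecMul_vecMul, h1, Matrix.vecMul_one]
  exact congrArg (fun v => (⟨a.j, v, a.f⟩ : Fr κ Λ)) hv

end Vale.Agent.P067.Full.Nilframe

end
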